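import Mathlib

/-!
Hyperbolic polynomials, their cones, spectrahedral shadows, and matrix facts.
-/

namespace Vale.Agent.P256

open Matrix MvPolynomial

/-- `p` is a homogeneous polynomial hyperbolic with respect to `e`. -/
def IsHyperbolic {n : ℕ} (p : MvPolynomial (Fin n) ℝ) (e : Fin n → ℝ) : Prop :=
  (∃ d : ℕ, p.IsHomogeneous d) ∧ 0 < eval e p ∧
    ∀ (x : Fin n → ℝ) (z : ℂ), aeval (fun i => z * (e i : ℂ) - (x i : ℂ)) p = 0 → z.im = 0

/-- The closed hyperbolicity cone: every root of `t ↦ p (t e - x)` is nonnegative. -/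
def hypCone {n : ℕ} (p : MvPolynomial (Fin n) ℝ) (e : Fin n → ℝ) : Set (Fin n → ℝ) :=
  {x | ∀ z : ℂ, aeval (fun i => z * (e i : ℂ) - (x i : ℂ)) p = 0 → 0 ≤ z.re}

/-- A spectrahedral shadow. -/
def IsShadow {n : ℕ} (S : Set (Fin n → ℝ)) : Prop :=
  ∃ (N a : ℕ) (A₀ : Matrix (Fin N) (Fin N) ℝ) (A : Fin n → Matrix (Fin N) (Fin N) ℝ)
    (B : Fin a → Matrix (Fin N) (Fin N) ℝ),
    A₀.IsSymm ∧ (∀ i, (A i).IsSymm) ∧ (∀ j, (B j).IsSymm) ∧
      S = {x | ∃ u : Fin a → ℝ, (A₀ + ∑ i, x i • A i + ∑ j, u j • B j).PosSemidef}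

variable {α β γ : Type*}

theorem isSymm_of_posSemidef {M : Matrix α α ℝ} (h : M.PosSemidef) : M.IsSymm := by
  simpa [Matrix.isHermitian_iff_isSymm] using h.1

theorem posSemidef_iff_real [Fintype α] {M : Matrix α α ℝ} :
    M.PosSemidef ↔ M.IsSymm ∧ ∀ v : α → ℝ, 0 ≤ v ⬝ᵥ (M *ᵥ v) := by
  simp [posSemidef_iff_dotProduct_mulVec, Matrix.isHermitian_iff_isSymm]

theorem posDef_iff_real [Fintype α] {M : Matrix α α ℝ} :
    M.PosDef ↔ M.IsSymm ∧ ∀ v : α → ℝ, v ≠ 0 → 0 < v ⬝ᵥ (M *ᵥ v) := by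
  simp [posDef_iff_dotProduct_mulVec, Matrix.isHermitian_iff_isSymm]

theorem posSemidef_fromBlocks_diag [Fintype α] [Fintype β] {M : Matrix α α ℝ} {N : Matrix β β ℝ} :
    (fromBlocks M 0 0 N).PosSemidef ↔ M.PosSemidef ∧ N.PosSemidef := by
  constructor
  · intro h
    exact ⟨h.submatrix Sum.inl, h.submatrix Sum.inr⟩
  · rintro ⟨h1, h2⟩
    refine posSemidef_iff_real.2 ⟨?_, fun v => ?_⟩
    · exact (isSymm_of_posSemidef h1).fromBlocks (by simp) (isSymm_of_posSemidef h2)
    · rw [fromBlocks_mulVec, zero_mulVec, zero_mulVec, add_zero, zero_add]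
      conv_rhs => rw [← Sum.elim_comp_inl_inr v]
      rw [sumElim_dotProduct_sumElim]
      exact add_nonneg ((posSemidef_iff_real.1 h1).2 _) ((posSemidef_iff_real.1 h2).2 _)

theorem abs_entry_le_trace [Fintype α] [DecidableEq α] {Y : Matrix α α ℝ} (h : Y.PosSemidef)
    (i j : α) : |Y i j| ≤ Y.trace := by
  have hd : ∀ k, Y k k ≤ Y.trace := fun k =>
    Finset.single_le_sum (f := fun l => Y l l) (fun l _ => h.diag_nonneg) (Finset.mem_univ k)
  have hs : Y j i = Y i j := (isSymm_of_posSemidef h).apply i j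
  have h1 := (posSemidef_iff_real.1 h).2 (Pi.single i 1 + Pi.single j 1)
  have h2 := (posSemidef_iff_real.1 h).2 (Pi.single i 1 - Pi.single j 1)
  simp [mulVec_add, mulVec_sub, hs] at h1 h2
  have := hd i
  have := hd j
  rw [abs_le]
  constructor <;> linarith

/-- Positive semidefiniteness is closed. -/
theorem isClosed_setOf_posSemidef [Fintype α] {X : Type*} [TopologicalSpace X]
    {g : X → Matrix α α ℝ} (hg : Continuous g) : IsClosed {x | (g x).PosSemidef} := by
  simp only [posSemidef_iff_real, Set.ofPred_and, Set.ofPred_forall]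
  refine IsClosed.inter (isClosed_eq hg.matrix_transpose hg) (isClosed_iInter fun v => ?_)
  exact isClosed_le continuous_const (continuous_const.dotProduct (hg.matrix_mulVec continuous_const))

/-- Positive definiteness is open among symmetric matrices. -/
theorem isOpen_setOf_posDef [Fintype α] {X : Type*} [TopologicalSpace X]
    {g : X → Matrix α α ℝ} (hg : Continuous g) (hs : ∀ x, (g x).IsSymm) :
    IsOpen {x | (g x).PosDef} := by
  have key : ∀ M : Matrix α α ℝ, M.IsSymm →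
      (M.PosDef ↔ ∀ v ∈ Metric.sphere (0 : α → ℝ) 1, 0 < v ⬝ᵥ (M *ᵥ v)) := by
    intro M hM
    refine ⟨fun h v hv => (posDef_iff_real.1 h).2 v (by rintro rfl; simp at hv),
      fun h => posDef_iff_real.2 ⟨hM, fun v hv => ?_⟩⟩
    have hn : ‖v‖ ≠ 0 := norm_ne_zero_iff.2 hv
    have := h (‖v‖⁻¹ • v) (by simp [norm_smul, hn])
    rw [mulVec_smul, dotProduct_smul, smul_dotProduct, smul_eq_mul, smul_eq_mul] at this
    exact pos_of_mul_pos_right (pos_of_mul_pos_right this (by positivity)) (by positivity)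
  simp only [fun x => key (g x) (hs x)]
  refine isOpen_iff_eventually.2 fun x hx => ?_
  refine (isCompact_sphere (0 : α → ℝ) 1).eventually_forall_of_forall_eventually fun v hv => ?_
  have hc : Continuous fun p : X × (α → ℝ) => p.2 ⬝ᵥ (g p.1 *ᵥ p.2) :=
    continuous_snd.dotProduct ((hg.comp continuous_fst).matrix_mulVec continuous_snd)
  exact (isOpen_lt continuous_const hc).mem_nhds (hx v hv)

/-- A nonsingular symmetric continuous path starting positive definite stays positive definite. -/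
theorem posDef_of_path [Fintype α] [DecidableEq α] {g : ℝ → Matrix α α ℝ}
    (hg : ContinuousOn g (Set.Ici 0)) (hs : ∀ t, 0 ≤ t → (g t).IsSymm)
    (hd : ∀ t, 0 ≤ t → (g t).det ≠ 0) (h0 : (g 0).PosDef) {t : ℝ} (ht : 0 ≤ t) :
    (g t).PosDef := by
  set h : ℝ → Matrix α α ℝ := fun t => g (max t 0)
  have hh : Continuous h :=
    hg.comp_continuous (continuous_id.max continuous_const) fun t => Set.mem_Ici.2 (le_max_right t 0)
  have e : {t | (h t).PosDef} = {t | (h t).PosSemidef} := by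
    ext t
    exact ⟨fun h => h.posSemidef, fun h => h.posDef_iff_det_ne_zero.2 (hd _ (le_max_right _ _))⟩
  have hcl : IsClopen {t | (h t).PosDef} :=
    ⟨e ▸ isClosed_setOf_posSemidef hh, isOpen_setOf_posDef hh fun t => hs _ (le_max_right _ _)⟩
  have := hcl.eq_univ ⟨0, by simpa [h] using h0⟩
  have h1 : (h t).PosDef := (Set.eq_univ_iff_forall.1 this) t
  simpa [h, max_eq_left ht] using h1

/-- A complex matrix with real symmetric part and definite imaginary part is nonsingular. -/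
theorem det_ne_zero_of_im_posDef [Fintype α] [DecidableEq α] {M₁ M₂ : Matrix α α ℝ}
    (h1 : M₁.IsSymm) (h2 : M₂.PosDef) {y : ℝ} (hy : y ≠ 0) {M : Matrix α α ℂ}
    (hre : ∀ i j, (M i j).re = M₁ i j) (him : ∀ i j, (M i j).im = y * M₂ i j) : M.det ≠ 0 := by
  intro h
  obtain ⟨ξ, hξ, hM⟩ := exists_mulVec_eq_zero_iff.2 h
  set a : α → ℝ := fun i => (ξ i).re
  set b : α → ℝ := fun i => (ξ i).im
  have e1 : M₁ *ᵥ a - y • (M₂ *ᵥ b) = 0 := by
    funext i
    have := congrArg Complex.re (congrFun hM i)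
    simpa [mulVec, dotProduct, hre, him, a, b, Finset.mul_sum, mul_assoc, Finset.sum_sub_distrib]
      using this
  have e2 : M₁ *ᵥ b + y • (M₂ *ᵥ a) = 0 := by
    funext i
    have := congrArg Complex.im (congrFun hM i)
    simpa [mulVec, dotProduct, hre, him, a, b, Finset.mul_sum, mul_assoc, Finset.sum_add_distrib]
      using this
  have hswap : a ⬝ᵥ (M₁ *ᵥ b) = b ⬝ᵥ (M₁ *ᵥ a) := by
    rw [dotProduct_mulVec, ← mulVec_transpose, h1.eq, dotProduct_comm]
  have f1 := congrArg (b ⬝ᵥ ·) e1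
  have f2 := congrArg (a ⬝ᵥ ·) e2
  simp [dotProduct_sub, dotProduct_add, dotProduct_smul] at f1 f2
  have hz : a ⬝ᵥ (M₂ *ᵥ a) + b ⬝ᵥ (M₂ *ᵥ b) = 0 := by
    refine (mul_eq_zero.1 (?_ : y * _ = 0)).resolve_left hy
    linarith
  have hna : ∀ v : α → ℝ, 0 ≤ v ⬝ᵥ (M₂ *ᵥ v) := (posSemidef_iff_real.1 h2.posSemidef).2
  have ha : a = 0 := by
    by_contra ha
    linarith [(posDef_iff_real.1 h2).2 a ha, hna b]
  have hb : b = 0 := by
    by_contra hb
    linarith [(posDef_iff_real.1 h2).2 b hb, hna a]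
  exact hξ (funext fun i => Complex.ext (congrFun ha i) (congrFun hb i))

end Vale.Agent.P256
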