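import Vale.Agent.P256.Basic

/-!
Hyperbolic polynomials built from a pencil and a positive map, and the lift of their cones.
-/

namespace Vale.Agent.P256

open Matrix MvPolynomial

variable {n m s r : ℕ} {α β : Type*}

/-- A linear family of matrices at a point with coordinates in an algebra. -/
noncomputable def liftMat {R : Type*} [CommRing R] [Algebra ℝ R]
    (T : (Fin n → ℝ) →ₗ[ℝ] Matrix α β ℝ) (w : Fin n → R) : Matrix α β R :=
  Matrix.of fun i j => ∑ k, w k * algebraMap ℝ R (T (Pi.single k 1) i j)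

/-- A linear map of matrices with entries in an algebra. -/
noncomputable def liftPhi {R : Type*} [CommRing R] [Algebra ℝ R]
    (Φ : Matrix (Fin s) (Fin s) ℝ →ₗ[ℝ] Matrix (Fin r) (Fin r) ℝ) (M : Matrix (Fin s) (Fin s) R) :
    Matrix (Fin r) (Fin r) R :=
  Matrix.of fun k l => ∑ i, ∑ j, M i j * algebraMap ℝ R (Φ (Matrix.single i j 1) k l)

/-- The data: a pencil `A`, affine parts `b`, `L` and a map `Φ` which is positive and faithful. -/
structure Data (n m s r : ℕ) where
  e : Fin n → ℝ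
  A : (Fin n → ℝ) →ₗ[ℝ] Matrix (Fin m) (Fin m) ℝ
  L : (Fin n → ℝ) →ₗ[ℝ] Matrix (Fin r) (Fin r) ℝ
  b : (Fin n → ℝ) →ₗ[ℝ] Matrix (Fin s) (Fin m) ℝ
  Φ : Matrix (Fin s) (Fin s) ℝ →ₗ[ℝ] Matrix (Fin r) (Fin r) ℝ
  hA : ∀ x, (A x).IsSymm
  hL : ∀ x, (L x).IsSymm
  hAe : (A e).PosDef
  hLe : (L e).PosDef
  hbe : b e = 0
  hΦ : ∀ Y, Y.PosSemidef → (Φ Y).PosSemidef
  hΦ0 : ∀ Y, Y.PosSemidef → Φ Y = 0 → Y = 0

variable (D : Data n m s r)

/-- The product formula with coordinates in an algebra. -/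
noncomputable def Data.form {R : Type*} [CommRing R] [Algebra ℝ R] (w : Fin n → R) : R :=
  (liftMat D.A w).det *
    ((liftMat D.A w).det • liftMat D.L w -
      liftPhi D.Φ (liftMat D.b w * (liftMat D.A w).adjugate * (liftMat D.b w)ᵀ)).det

/-- The polynomial. -/
noncomputable def Data.poly : MvPolynomial (Fin n) ℝ := D.form X

theorem Data.map_form {R R' : Type*} [CommRing R] [Algebra ℝ R] [CommRing R'] [Algebra ℝ R']
    (f : R →ₐ[ℝ] R') (w : Fin n → R) : f (D.form w) = D.form fun k => f (w k) := by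
  have h1 : ∀ {α β : Type} (T : (Fin n → ℝ) →ₗ[ℝ] Matrix α β ℝ),
      (liftMat T w).map f = liftMat T fun k => f (w k) := by
    intro α β T; ext i j; simp [liftMat]
  have h2 : ∀ M, (liftPhi (R := R) D.Φ M).map f = liftPhi D.Φ (M.map f) := by
    intro M; ext i j; simp [liftPhi]
  have h3 : ∀ (a : R) (M N : Matrix (Fin r) (Fin r) R),
      (a • M - N).map f = f a • M.map f - N.map f := by
    intro a M N; ext i j; simp
  have h4 : ∀ (B : Matrix (Fin s) (Fin m) R) (M : Matrix (Fin m) (Fin m) R),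
      (B * M * Bᵀ).map f = B.map f * M.map f * (B.map f)ᵀ := by
    intro B M; ext i j; simp [Matrix.mul_apply]
  have hd : f (liftMat D.A w).det = (liftMat D.A fun k => f (w k)).det := by
    rw [AlgHom.map_det, AlgHom.mapMatrix_apply, h1]
  have e : (liftMat D.A w).adjugate.map f = (liftMat D.A fun k => f (w k)).adjugate := by
    rw [← h1, ← AlgHom.mapMatrix_apply, f.map_adjugate, AlgHom.mapMatrix_apply]
  rw [Data.form, map_mul, hd, AlgHom.map_det, AlgHom.mapMatrix_apply, h3, hd, h1, h2, h4, h1, e]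
  rfl

theorem Data.aeval_poly {R : Type*} [CommRing R] [Algebra ℝ R] (w : Fin n → R) :
    aeval w D.poly = D.form w := by
  rw [Data.poly, D.map_form]
  simp

theorem map_expand (T : (Fin n → ℝ) →ₗ[ℝ] Matrix α β ℝ) (x : Fin n → ℝ) (i : α) (j : β) :
    T x i j = ∑ k, x k * T (Pi.single k 1) i j := by
  conv_lhs => rw [pi_eq_sum_univ' x]
  simp only [map_sum, map_smul, Matrix.sum_apply, Matrix.smul_apply, smul_eq_mul]

theorem map_expand_matrix (Φ : Matrix (Fin s) (Fin s) ℝ →ₗ[ℝ] Matrix (Fin r) (Fin r) ℝ)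
    (M : Matrix (Fin s) (Fin s) ℝ) (k l : Fin r) :
    Φ M k l = ∑ i, ∑ j, M i j * Φ (Matrix.single i j 1) k l := by
  have h : ∀ i j, Matrix.single i j (M i j) = M i j • Matrix.single i j (1 : ℝ) := fun i j => by
    simp [Matrix.smul_single]
  conv_lhs => rw [matrix_eq_sum_single M]
  simp only [h, map_sum, map_smul, Matrix.sum_apply, Matrix.smul_apply, smul_eq_mul]

theorem liftMat_real (T : (Fin n → ℝ) →ₗ[ℝ] Matrix α β ℝ) (x : Fin n → ℝ) :
    liftMat T x = T x := by
  ext i j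
  rw [map_expand T x i j]
  simp [liftMat]

theorem liftPhi_real (Φ : Matrix (Fin s) (Fin s) ℝ →ₗ[ℝ] Matrix (Fin r) (Fin r) ℝ)
    (M : Matrix (Fin s) (Fin s) ℝ) : liftPhi Φ M = Φ M := by
  ext k l
  rw [map_expand_matrix Φ M k l]
  simp [liftPhi]

theorem Data.eval_poly (x : Fin n → ℝ) :
    eval x D.poly = (D.A x).det *
      ((D.A x).det • D.L x - D.Φ (D.b x * (D.A x).adjugate * (D.b x)ᵀ)).det := by
  have h := D.aeval_poly x
  rw [aeval_eq_eval] at h
  simp only [Data.form, liftMat_real, liftPhi_real] at h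
  exact h

/-! Homogeneity. -/

theorem isHomogeneous_det {ι σ : Type*} [Fintype ι] [DecidableEq ι]
    {M : Matrix ι ι (MvPolynomial σ ℝ)} (d : ι → ℕ) (h : ∀ i j, (M i j).IsHomogeneous (d i)) :
    M.det.IsHomogeneous (∑ i, d i) := by
  rw [det_apply']
  refine IsHomogeneous.sum _ _ _ fun τ _ => ?_
  rw [← Equiv.sum_comp τ d]
  have e : ((Equiv.Perm.sign τ : ℤ) : MvPolynomial σ ℝ) = C ((Equiv.Perm.sign τ : ℤ) : ℝ) :=
    (map_intCast (C : ℝ →+* MvPolynomial σ ℝ) _).symm
  rw [e]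
  exact (IsHomogeneous.prod Finset.univ _ _ fun i _ => h (τ i) i).C_mul _

theorem isHomogeneous_liftMat (T : (Fin n → ℝ) →ₗ[ℝ] Matrix α β ℝ) (i : α) (j : β) :
    (liftMat T (X : Fin n → MvPolynomial (Fin n) ℝ) i j).IsHomogeneous 1 := by
  simp only [liftMat, of_apply]
  refine IsHomogeneous.sum _ _ _ fun k _ => ?_
  have := (isHomogeneous_X ℝ k).mul (isHomogeneous_C (Fin n) (T (Pi.single k 1) i j))
  simpa [algebraMap_eq] using this

theorem Data.poly_homogeneous : ∃ d, D.poly.IsHomogeneous d := by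
  set MA := liftMat D.A (X : Fin n → MvPolynomial (Fin n) ℝ)
  set Mb := liftMat D.b (X : Fin n → MvPolynomial (Fin n) ℝ)
  have hd : MA.det.IsHomogeneous m := by
    simpa using isHomogeneous_det (fun _ => 1) (isHomogeneous_liftMat D.A)
  have hadj : ∀ i j, (MA.adjugate i j).IsHomogeneous (m - 1) := by
    intro i j
    rw [adjugate_apply]
    have h := isHomogeneous_det (M := MA.updateRow j (Pi.single i 1))
      (fun k => if k = j then 0 else 1) fun k l => by
        by_cases hk : k = j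
        · subst hk
          simp only [updateRow_self, if_pos, Pi.single_apply]
          split
          · exact isHomogeneous_one _ _
          · exact isHomogeneous_zero _ _ _
        · simp only [updateRow_ne hk, if_neg hk]
          exact isHomogeneous_liftMat D.A k l
    simpa [Finset.sum_ite, Finset.filter_ne', Finset.card_erase_of_mem] using h
  have hin : ∀ k l, ((MA.det • liftMat D.L (X : Fin n → MvPolynomial (Fin n) ℝ) -
      liftPhi D.Φ (Mb * MA.adjugate * Mbᵀ) : Matrix (Fin r) (Fin r) (MvPolynomial (Fin n) ℝ))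
        k l).IsHomogeneous (m + 1) := by
    intro k l
    simp only [Matrix.sub_apply, Matrix.smul_apply, smul_eq_mul]
    refine (hd.mul (isHomogeneous_liftMat D.L k l)).sub ?_
    simp only [liftPhi, of_apply]
    refine IsHomogeneous.sum _ _ _ fun i _ => IsHomogeneous.sum _ _ _ fun j _ => ?_
    rw [algebraMap_eq, mul_comm]
    refine IsHomogeneous.C_mul ?_ _
    simp only [Matrix.mul_apply, Finset.sum_mul, transpose_apply]
    refine IsHomogeneous.sum _ _ _ fun a _ => IsHomogeneous.sum _ _ _ fun c _ => ?_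
    have hm : 1 ≤ m := c.pos
    have := ((isHomogeneous_liftMat D.b i c).mul (hadj c a)).mul (isHomogeneous_liftMat D.b j a)
    rwa [show 1 + (m - 1) + 1 = m + 1 by omega] at this
  exact ⟨_, hd.mul (isHomogeneous_det (fun _ => m + 1) hin)⟩

/-! Symmetry and trace bounds. -/

theorem Data.hΦs {Y : Matrix (Fin s) (Fin s) ℝ} (hY : Y.IsSymm) : (D.Φ Y).IsSymm := by
  set c : ℝ := ∑ i, ∑ j, |Y i j|
  have hp : (Y + c • (1 : Matrix (Fin s) (Fin s) ℝ)).PosSemidef := by
    refine posSemidef_iff_real.2 ⟨hY.add (isSymm_one.smul c), fun v => ?_⟩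
    rw [add_mulVec, smul_mulVec, one_mulVec, dotProduct_add, dotProduct_smul, smul_eq_mul]
    have h1 : ∀ k, |v k| * |v k| ≤ v ⬝ᵥ v := fun k => by
      rw [abs_mul_abs_self]
      exact Finset.single_le_sum (f := fun l => v l * v l) (fun l _ => mul_self_nonneg _)
        (Finset.mem_univ k)
    have e1 : v ⬝ᵥ (Y *ᵥ v) = ∑ i, ∑ j, v i * (Y i j * v j) := by
      simp [dotProduct, mulVec, Finset.mul_sum]
    have e2 : c * (v ⬝ᵥ v) = ∑ i, ∑ j, |Y i j| * (v ⬝ᵥ v) := by
      simp [c, Finset.sum_mul]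
    rw [e1, e2, ← Finset.sum_add_distrib]
    refine Finset.sum_nonneg fun i _ => ?_
    rw [← Finset.sum_add_distrib]
    refine Finset.sum_nonneg fun j _ => ?_
    have h2 : |v i * (Y i j * v j)| ≤ |Y i j| * (v ⬝ᵥ v) := by
      rw [abs_mul, abs_mul, mul_left_comm]
      refine mul_le_mul_of_nonneg_left ?_ (abs_nonneg _)
      nlinarith [h1 i, h1 j, sq_nonneg (|v i| - |v j|)]
    linarith [neg_abs_le (v i * (Y i j * v j))]
  have h : D.Φ Y = D.Φ (Y + c • 1) - c • D.Φ 1 := by rw [map_add, map_smul]; abel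
  rw [h]
  exact (isSymm_of_posSemidef (D.hΦ _ hp)).sub
    ((isSymm_of_posSemidef (D.hΦ _ PosSemidef.one)).smul c)

theorem Data.trace_bound : ∃ δ : ℝ, 0 < δ ∧
    ∀ Y : Matrix (Fin s) (Fin s) ℝ, Y.PosSemidef → δ * Y.trace ≤ (D.Φ Y).trace := by
  set K : Set (Matrix (Fin s) (Fin s) ℝ) := {Y | Y.PosSemidef ∧ Y.trace = 1}
  have hK : IsCompact K := by
    refine (isCompact_univ_pi fun _ => isCompact_univ_pi fun _ =>
      isCompact_Icc (a := (-1 : ℝ)) (b := 1)).of_isClosed_subset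
      ((isClosed_setOf_posSemidef continuous_id).inter
        (isClosed_eq continuous_id.matrix_trace continuous_const)) ?_
    rintro Y ⟨hY, hY1⟩ i _ j _
    have := abs_entry_le_trace hY i j
    rw [hY1, abs_le] at this
    exact this
  have hnorm : ∀ Y : Matrix (Fin s) (Fin s) ℝ, Y.PosSemidef → Y ≠ 0 →
      0 < Y.trace ∧ Y.trace⁻¹ • Y ∈ K := by
    intro Y hY h0
    have ht : 0 < Y.trace :=
      hY.trace_nonneg.lt_of_ne fun h => h0 ((PosSemidef.trace_eq_zero_iff hY).1 h.symm)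
    exact ⟨ht, hY.smul (inv_nonneg.2 ht.le), by simp [trace_smul, ht.ne']⟩
  rcases K.eq_empty_or_nonempty with h | h
  · refine ⟨1, one_pos, fun Y hY => ?_⟩
    by_cases h0 : Y = 0
    · simp [h0]
    · exact absurd (hnorm Y hY h0).2 (by simp [h])
  · obtain ⟨Y0, hY0, hmin⟩ := hK.exists_isMinOn h
      (f := fun Y => (D.Φ Y).trace)
      (D.Φ.continuous_of_finiteDimensional.matrix_trace.continuousOn)
    refine ⟨(D.Φ Y0).trace, ?_, fun Y hY => ?_⟩
    · refine (D.hΦ _ hY0.1).trace_nonneg.lt_of_ne fun hc => ?_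
      have := D.hΦ0 _ hY0.1 ((PosSemidef.trace_eq_zero_iff (D.hΦ _ hY0.1)).1 hc.symm)
      simp [this] at hY0
      exact absurd hY0.2 (by simp)
    · by_cases h0 : Y = 0
      · simp [h0]
      · obtain ⟨ht, hm⟩ := hnorm Y hY h0
        have := hmin hm
        simp only [map_smul, trace_smul, smul_eq_mul, Set.mem_ofPred_eq] at this
        rwa [le_inv_mul_iff₀ ht, mul_comm] at this

/-- The value `L - Φ (b A⁻¹ bᵀ)`. -/
noncomputable def Data.G (v : Fin n → ℝ) : Matrix (Fin r) (Fin r) ℝ :=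
  D.L v - D.Φ (D.b v * (D.A v)⁻¹ * (D.b v)ᵀ)

/-- Points where both factors are nonsingular. -/
def Data.Regular (v : Fin n → ℝ) : Prop := (D.A v).det ≠ 0 ∧ (D.G v).det ≠ 0

theorem inner_eq {R : Type*} [Field R] [Algebra ℝ R]
    (Φ : Matrix (Fin s) (Fin s) ℝ →ₗ[ℝ] Matrix (Fin r) (Fin r) ℝ) (A : Matrix (Fin m) (Fin m) R)
    (hA : A.det ≠ 0) (b : Matrix (Fin s) (Fin m) R) (L : Matrix (Fin r) (Fin r) R) :
    A.det • L - liftPhi Φ (b * A.adjugate * bᵀ) = A.det • (L - liftPhi Φ (b * A⁻¹ * bᵀ)) := by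
  have hadj : A.adjugate = A.det • A⁻¹ := by
    rw [inv_def, Ring.inverse_eq_inv', smul_smul, mul_inv_cancel₀ hA, one_smul]
  rw [smul_sub, hadj, Matrix.mul_smul, Matrix.smul_mul]
  congr 1
  ext k l
  simp [liftPhi, Finset.mul_sum, mul_assoc]

theorem Data.eval_ne_zero_iff (v : Fin n → ℝ) : eval v D.poly ≠ 0 ↔ D.Regular v := by
  rw [D.eval_poly]
  by_cases hA : (D.A v).det = 0
  · simp [hA, Data.Regular]
  · have h := inner_eq D.Φ (D.A v) hA (D.b v) (D.L v)
    simp only [liftPhi_real] at h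
    rw [h, det_smul]
    simp [hA, Data.Regular, Data.G]

theorem Data.G_smul {τ : ℝ} (hτ : τ ≠ 0) {v : Fin n → ℝ} (hv : (D.A v).det ≠ 0) :
    D.G (τ • v) = τ • D.G v := by
  have hinv : (D.A (τ • v))⁻¹ = τ⁻¹ • (D.A v)⁻¹ := by
    refine inv_eq_right_inv ?_
    rw [map_smul, Matrix.smul_mul, Matrix.mul_smul, smul_smul,
      mul_inv_cancel₀ hτ, one_smul, mul_nonsing_inv _ (isUnit_iff_ne_zero.2 hv)]
  rw [Data.G, hinv]
  simp [Data.G, map_smul, transpose_smul, Matrix.smul_mul, Matrix.mul_smul, smul_smul, smul_sub,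
    hτ]

theorem Data.regular_smul {τ : ℝ} (hτ : τ ≠ 0) {v : Fin n → ℝ} (hv : D.Regular v) :
    D.Regular (τ • v) := by
  refine ⟨?_, ?_⟩
  · rw [map_smul, det_smul]; exact mul_ne_zero (pow_ne_zero _ hτ) hv.1
  · rw [D.G_smul hτ hv.1, det_smul]; exact mul_ne_zero (pow_ne_zero _ hτ) hv.2

theorem Data.G_e : D.G D.e = D.L D.e := by simp [Data.G, D.hbe]

theorem Data.eval_e_pos : 0 < eval D.e D.poly := by
  rw [D.eval_poly, D.hbe]
  simp only [Matrix.zero_mul, map_zero, sub_zero, det_smul]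
  exact mul_pos D.hAe.det_pos (mul_pos (pow_pos D.hAe.det_pos _) D.hLe.det_pos)

theorem re_liftMat (T : (Fin n → ℝ) →ₗ[ℝ] Matrix α β ℝ) (w : Fin n → ℂ) (i : α) (j : β) :
    (liftMat T w i j).re = T (fun k => (w k).re) i j ∧
      (liftMat T w i j).im = T (fun k => (w k).im) i j := by
  rw [map_expand T _ i j, map_expand T _ i j]
  constructor <;> simp [liftMat]

theorem re_liftPhi (Φ : Matrix (Fin s) (Fin s) ℝ →ₗ[ℝ] Matrix (Fin r) (Fin r) ℝ)
    (M : Matrix (Fin s) (Fin s) ℂ) (k l : Fin r) :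
    (liftPhi Φ M k l).re = Φ (M.map Complex.re) k l ∧
      (liftPhi Φ M k l).im = Φ (M.map Complex.im) k l := by
  rw [map_expand_matrix Φ _ k l, map_expand_matrix Φ _ k l]
  constructor <;> simp [liftPhi]

theorem Data.form_ne_zero (x : Fin n → ℝ) {z : ℂ} (hz : z.im ≠ 0) :
    D.form (fun i => z * (D.e i : ℂ) - (x i : ℂ)) ≠ 0 := by
  set w : Fin n → ℂ := fun i => z * (D.e i : ℂ) - (x i : ℂ) with hw
  set y := z.im
  set u : Fin n → ℝ := z.re • D.e - x
  have hwr : (fun k => (w k).re) = u := by funext k; simp [hw, u]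
  have hwi : (fun k => (w k).im) = y • D.e := by funext k; simp [hw, y]
  set M := liftMat D.A w
  have hM1 : ∀ i j, (M i j).re = D.A u i j := fun i j => by rw [(re_liftMat _ _ i j).1, hwr]
  have hM2 : ∀ i j, (M i j).im = y * D.A D.e i j := fun i j => by
    rw [(re_liftMat _ _ i j).2, hwi, map_smul]; rfl
  have hdet : M.det ≠ 0 := det_ne_zero_of_im_posDef (D.hA u) D.hAe hz hM1 hM2
  have hMs : Mᵀ = M := by
    ext i j
    apply Complex.ext <;> simp only [transpose_apply, hM1, hM2, (D.hA u).apply i j, (D.hA D.e).apply i j]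
  set R1 : Matrix (Fin m) (Fin m) ℝ := (M⁻¹).map Complex.re
  set R2 : Matrix (Fin m) (Fin m) ℝ := (M⁻¹).map Complex.im
  have hone := mul_nonsing_inv M (isUnit_iff_ne_zero.2 hdet)
  have eq1 : D.A u * R1 - y • (D.A D.e * R2) = 1 := by
    ext i j
    have := congrArg Complex.re (congrFun (congrFun hone i) j)
    simp [Matrix.mul_apply, hM1, hM2, Finset.sum_sub_distrib, mul_assoc,
      ← Finset.mul_sum] at this
    simp [Matrix.mul_apply, R1, R2, this, Matrix.one_apply, apply_ite Complex.re]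
  have eq2 : D.A u * R2 + y • (D.A D.e * R1) = 0 := by
    ext i j
    have := congrArg Complex.im (congrFun (congrFun hone i) j)
    simp [Matrix.mul_apply, hM1, hM2, Finset.sum_add_distrib, mul_assoc,
      ← Finset.mul_sum, Matrix.one_apply, apply_ite Complex.im] at this
    simp [Matrix.mul_apply, R1, R2, this]
  have hsR : (M⁻¹)ᵀ = M⁻¹ := by rw [transpose_nonsing_inv, hMs]
  have hR1 : R1ᵀ = R1 := by rw [← transpose_map, hsR]
  have hR2 : R2ᵀ = R2 := by rw [← transpose_map, hsR]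
  have hneg : R2 = -(y • (R1 * D.A D.e * R1 + R2 * D.A D.e * R2)) := by
    have e3 : R2 * D.A u + y • (R1 * D.A D.e) = 0 := by
      have := congrArg transpose eq2
      simpa [transpose_add, transpose_smul, transpose_mul, hR1, hR2, (D.hA u).eq, (D.hA D.e).eq]
        using this
    have e4 := congrArg (R2 * ·) eq1
    simp only [Matrix.mul_sub, Matrix.mul_smul, mul_one, ← Matrix.mul_assoc] at e4
    rw [eq_neg_of_add_eq_zero_left e3, Matrix.neg_mul, Matrix.smul_mul] at e4
    rw [smul_add]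
    conv_lhs => rw [← e4]
    abel
  have hP : (R1 * D.A D.e * R1 + R2 * D.A D.e * R2).PosSemidef := by
    refine PosSemidef.add ?_ ?_
    · have := D.hAe.posSemidef.conjTranspose_mul_mul_same R1
      rwa [conjTranspose_eq_transpose_of_trivial, hR1] at this
    · have := D.hAe.posSemidef.conjTranspose_mul_mul_same R2
      rwa [conjTranspose_eq_transpose_of_trivial, hR2] at this
  set B := D.b u
  set P := R1 * D.A D.e * R1 + R2 * D.A D.e * R2
  have hb : ∀ i j, liftMat D.b w i j = (B i j : ℂ) := by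
    intro i j
    apply Complex.ext
    · rw [(re_liftMat _ _ i j).1, hwr]; rfl
    · rw [(re_liftMat _ _ i j).2, hwi, map_smul, D.hbe]; simp
  set Gc := liftMat D.L w - liftPhi D.Φ (liftMat D.b w * M⁻¹ * (liftMat D.b w)ᵀ)
  have hS1 : (liftMat D.b w * M⁻¹ * (liftMat D.b w)ᵀ).map Complex.re = B * R1 * Bᵀ := by
    ext i j; simp [Matrix.mul_apply, hb, R1]
  have hS2 : (liftMat D.b w * M⁻¹ * (liftMat D.b w)ᵀ).map Complex.im = B * R2 * Bᵀ := by
    ext i j; simp [Matrix.mul_apply, hb, R2]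
  have hG2 : (D.L D.e + D.Φ (B * P * Bᵀ)).PosDef := by
    refine D.hLe.add_posSemidef (D.hΦ _ ?_)
    have := hP.mul_mul_conjTranspose_same B
    rwa [conjTranspose_eq_transpose_of_trivial] at this
  have hG1 : (D.L u - D.Φ (B * R1 * Bᵀ)).IsSymm := by
    refine (D.hL u).sub (D.hΦs ?_)
    unfold IsSymm
    simp [transpose_mul, hR1, Matrix.mul_assoc]
  have hGdet : Gc.det ≠ 0 := by
    refine det_ne_zero_of_im_posDef hG1 hG2 hz (fun i j => ?_) fun i j => ?_
    · simp only [Gc, Matrix.sub_apply, Complex.sub_re, (re_liftPhi _ _ i j).1, hS1,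
        (re_liftMat _ _ i j).1, hwr]
    · simp only [Gc, Matrix.sub_apply, Complex.sub_im, (re_liftPhi _ _ i j).2, hS2,
        (re_liftMat _ _ i j).2, hwi]
      rw [hneg]
      simp [Matrix.mul_neg, Matrix.neg_mul, Matrix.mul_smul, Matrix.smul_mul]
      ring
  rw [Data.form, inner_eq D.Φ M hdet, det_smul]
  exact mul_ne_zero hdet (mul_ne_zero (pow_ne_zero _ hdet) hGdet)

theorem Data.hyperbolic : IsHyperbolic D.poly D.e := by
  refine ⟨D.poly_homogeneous, D.eval_e_pos, fun x z h => ?_⟩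
  rw [D.aeval_poly] at h
  by_contra hz
  exact D.form_ne_zero x hz h

theorem Data.aeval_real (v : Fin n → ℝ) :
    aeval (fun i => (v i : ℂ)) D.poly = ((eval v D.poly : ℝ) : ℂ) := by
  rw [D.aeval_poly, ← aeval_eq_eval, D.aeval_poly]
  exact (D.map_form Complex.ofRealAm v).symm

theorem Data.mem_hypCone_iff (x : Fin n → ℝ) :
    x ∈ hypCone D.poly D.e ↔ ∀ ε : ℝ, 0 < ε → D.Regular (x + ε • D.e) := by
  have hcast : ∀ t : ℝ, (fun i => (t : ℂ) * (D.e i : ℂ) - (x i : ℂ)) =
      fun i => (((t • D.e - x) i : ℝ) : ℂ) := fun t => by funext i; simp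
  constructor
  · intro hx ε hε
    by_contra hN
    have h0 : ¬D.Regular (-ε • D.e - x) := fun h => hN (by
      have := D.regular_smul (τ := -1) (by norm_num) h
      simpa [smul_sub, sub_eq_add_neg, add_comm] using this)
    have := hx ((-ε : ℝ) : ℂ) (by
      rw [hcast, D.aeval_real, not_not.1 (mt (D.eval_ne_zero_iff _).1 h0)]; simp)
    simp at this
    linarith
  · intro h z hz
    have him := D.hyperbolic.2.2 x z hz
    by_contra hneg
    have hzr : z = ((z.re : ℝ) : ℂ) := Complex.ext rfl (by simpa using him)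
    rw [hzr, hcast, D.aeval_real] at hz
    have h1 := D.regular_smul (τ := -1) (by norm_num) (h (-z.re) (by linarith))
    have e : (-1 : ℝ) • (x + -z.re • D.e) = z.re • D.e - x := by
      funext i; simp; ring
    rw [e, ← D.eval_ne_zero_iff] at h1
    exact h1 (by exact_mod_cast hz)

theorem Data.continuousOn_G {x : Fin n → ℝ} (h : ∀ t : ℝ, 0 ≤ t → (D.A (t • x + D.e)).det ≠ 0) :
    ContinuousOn (fun t : ℝ => D.G (t • x + D.e)) (Set.Ici 0) := by
  rw [continuousOn_iff_continuous_domRestrict]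
  have hp : Continuous fun t : Set.Ici (0 : ℝ) => (t : ℝ) • x + D.e := by fun_prop
  have hA : Continuous fun t : Set.Ici (0 : ℝ) => D.A ((t : ℝ) • x + D.e) :=
    D.A.continuous_of_finiteDimensional.comp hp
  have hL : Continuous fun t : Set.Ici (0 : ℝ) => D.L ((t : ℝ) • x + D.e) :=
    D.L.continuous_of_finiteDimensional.comp hp
  have hb : Continuous fun t : Set.Ici (0 : ℝ) => D.b ((t : ℝ) • x + D.e) :=
    D.b.continuous_of_finiteDimensional.comp hp
  have hd : Continuous fun t : Set.Ici (0 : ℝ) => (D.A ((t : ℝ) • x + D.e)).det⁻¹ :=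
    hA.matrix_det.inv₀ fun t => h t t.2
  have hi : Continuous fun t : Set.Ici (0 : ℝ) => (D.A ((t : ℝ) • x + D.e))⁻¹ := by
    simp only [inv_def, Ring.inverse_eq_inv']
    exact hd.smul hA.matrix_adjugate
  have hY : Continuous fun t : Set.Ici (0 : ℝ) => D.b ((t : ℝ) • x + D.e) *
      (D.A ((t : ℝ) • x + D.e))⁻¹ * (D.b ((t : ℝ) • x + D.e))ᵀ :=
    (hb.matrix_mul hi).matrix_mul hb.matrix_transpose
  have hΦ : Continuous fun t : Set.Ici (0 : ℝ) => D.Φ (D.b ((t : ℝ) • x + D.e) *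
      (D.A ((t : ℝ) • x + D.e))⁻¹ * (D.b ((t : ℝ) • x + D.e))ᵀ) :=
    D.Φ.continuous_of_finiteDimensional.comp hY
  exact hL.sub hΦ

theorem Data.posDef_of_mem {x : Fin n → ℝ} (hx : x ∈ hypCone D.poly D.e) {ε : ℝ} (hε : 0 < ε) :
    (D.A (x + ε • D.e)).PosDef ∧ (D.G (x + ε • D.e)).PosDef := by
  rw [D.mem_hypCone_iff] at hx
  have hreg : ∀ t : ℝ, 0 ≤ t → D.Regular (t • x + D.e) := by
    intro t ht
    rcases ht.eq_or_lt with rfl | ht
    · simp [Data.Regular, D.G_e, D.hAe.det_pos.ne', D.hLe.det_pos.ne']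
    · have := D.regular_smul ht.ne' (hx t⁻¹ (inv_pos.2 ht))
      simpa [smul_add, smul_smul, ht.ne'] using this
  have hp : Continuous fun t : ℝ => t • x + D.e := by fun_prop
  have hA : (D.A (ε⁻¹ • x + D.e)).PosDef :=
    posDef_of_path (g := fun t => D.A (t • x + D.e))
      (D.A.continuous_of_finiteDimensional.comp hp).continuousOn (fun t _ => D.hA _)
      (fun t ht => (hreg t ht).1) (by simpa using D.hAe) (inv_nonneg.2 hε.le)
  have hG : (D.G (ε⁻¹ • x + D.e)).PosDef :=
    posDef_of_path (g := fun t => D.G (t • x + D.e))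
      (D.continuousOn_G fun t ht => (hreg t ht).1)
      (fun t _ => (D.hL _).sub (D.hΦs (by
        unfold IsSymm
        simp [transpose_mul, transpose_nonsing_inv, (D.hA _).eq, Matrix.mul_assoc])))
      (fun t ht => (hreg t ht).2) (by simpa [D.G_e] using D.hLe) (inv_nonneg.2 hε.le)
  have e : x + ε • D.e = ε • (ε⁻¹ • x + D.e) := by simp [smul_add, smul_smul, hε.ne']
  rw [e, map_smul, D.G_smul hε.ne' hA.det_pos.ne']
  exact ⟨hA.smul hε, hG.smul hε⟩

/-- The semidefinite lift. -/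
def Data.liftSet : Set (Fin n → ℝ) :=
  {x | ∃ Y : Matrix (Fin s) (Fin s) ℝ, (fromBlocks Y (D.b x) (D.b x)ᵀ (D.A x)).PosSemidef ∧
    (D.L x - D.Φ Y).PosSemidef}

theorem schur_iff {A : Matrix (Fin m) (Fin m) ℝ} (hA : A.PosDef) (Y : Matrix (Fin s) (Fin s) ℝ)
    (b : Matrix (Fin s) (Fin m) ℝ) :
    (fromBlocks Y b bᵀ A).PosSemidef ↔ (Y - b * A⁻¹ * bᵀ).PosSemidef := by
  let _ := hA.isUnit.invertible
  have := hA.fromBlocks₂₂ Y b
  simpa only [conjTranspose_eq_transpose_of_trivial] using this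

theorem Data.liftSet_subset {x : Fin n → ℝ} (hx : x ∈ D.liftSet) : x ∈ hypCone D.poly D.e := by
  obtain ⟨Y, h1, h2⟩ := hx
  rw [D.mem_hypCone_iff]
  intro ε hε
  have hεA : (ε • D.A D.e).PosDef := D.hAe.smul hε
  have hAv : D.A (x + ε • D.e) = D.A x + ε • D.A D.e := by simp
  have hA : (D.A (x + ε • D.e)).PosDef := by
    have hAx : (D.A x).PosSemidef := h1.submatrix Sum.inr
    rw [hAv, add_comm]
    exact hεA.add_posSemidef hAx
  have hbv : D.b (x + ε • D.e) = D.b x := by simp [D.hbe]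
  have hblk : (fromBlocks Y (D.b x) (D.b x)ᵀ (D.A (x + ε • D.e))).PosSemidef := by
    have := h1.add ((posSemidef_fromBlocks_diag (M := (0 : Matrix (Fin s) (Fin s) ℝ))).2
      ⟨PosSemidef.zero, hεA.posSemidef⟩)
    simpa [fromBlocks_add, hAv] using this
  rw [schur_iff hA] at hblk
  refine ⟨hA.det_pos.ne', ?_⟩
  have e : D.G (x + ε • D.e) =
      ε • D.L D.e + ((D.L x - D.Φ Y) + D.Φ (Y - D.b x * (D.A (x + ε • D.e))⁻¹ * (D.b x)ᵀ)) := by
    simp only [Data.G, hbv, map_add, map_smul, map_sub]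
    abel
  rw [e]
  exact ((D.hLe.smul hε).add_posSemidef (h2.add (D.hΦ _ hblk))).det_pos.ne'

theorem Data.subset_liftSet {x : Fin n → ℝ} (hx : x ∈ hypCone D.poly D.e) : x ∈ D.liftSet := by
  obtain ⟨δ, hδ, htr⟩ := D.trace_bound
  set ε : ℕ → ℝ := fun k => 1 / (k + 1)
  have hεpos : ∀ k, 0 < ε k := fun k => by positivity
  set v : ℕ → (Fin n → ℝ) := fun k => x + ε k • D.e
  set Y : ℕ → Matrix (Fin s) (Fin s) ℝ := fun k => D.b (v k) * (D.A (v k))⁻¹ * (D.b (v k))ᵀ
  have hY : ∀ k, (Y k).PosSemidef := fun k => by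
    have := (D.posDef_of_mem hx (hεpos k)).1.posSemidef.inv.mul_mul_conjTranspose_same (D.b (v k))
    rwa [conjTranspose_eq_transpose_of_trivial] at this
  set C : ℝ := ((D.L x).trace + (D.L D.e).trace) / δ
  have hC : ∀ k, (Y k).trace ≤ C := fun k => by
    have h1 := (D.posDef_of_mem hx (hεpos k)).2.posSemidef.trace_nonneg
    have hL' : D.L (v k) = D.L x + ε k • D.L D.e := by simp [v]
    rw [show D.G (v k) = D.L (v k) - D.Φ (Y k) from rfl, trace_sub, hL', trace_add, trace_smul,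
      smul_eq_mul] at h1
    have h2 := htr _ (hY k)
    have h3 : ε k * (D.L D.e).trace ≤ (D.L D.e).trace := by
      refine mul_le_of_le_one_left D.hLe.posSemidef.trace_nonneg ?_
      simp only [ε]
      rw [div_le_one (by positivity)]
      simp
    rw [le_div_iff₀ hδ, mul_comm]
    exact h2.trans (by linarith)
  have hmem : ∀ k, Y k ∈ (Set.univ.pi fun _ : Fin s => Set.univ.pi fun _ : Fin s => Set.Icc (-C) C) :=
    fun k i _ j _ => abs_le.1 ((abs_entry_le_trace (hY k) i j).trans (hC k))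
  obtain ⟨Ylim, -, φ, hφ, hlim⟩ :=
    (isCompact_univ_pi fun _ => isCompact_univ_pi fun _ => isCompact_Icc).tendsto_subseq hmem
  have hε0 : Filter.Tendsto (fun k => ε (φ k)) Filter.atTop (nhds 0) :=
    (tendsto_one_div_add_atTop_nhds_zero_nat).comp hφ.tendsto_atTop
  have hpt : Filter.Tendsto (fun k => (ε (φ k), Y (φ k))) Filter.atTop (nhds (0, Ylim)) :=
    hε0.prodMk_nhds hlim
  have hv : Continuous fun q : ℝ × Matrix (Fin s) (Fin s) ℝ => x + q.1 • D.e := by fun_prop
  have hc1 : Continuous fun q : ℝ × Matrix (Fin s) (Fin s) ℝ =>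
      fromBlocks q.2 (D.b (x + q.1 • D.e)) (D.b (x + q.1 • D.e))ᵀ (D.A (x + q.1 • D.e)) :=
    continuous_snd.matrix_fromBlocks (D.b.continuous_of_finiteDimensional.comp hv)
      (D.b.continuous_of_finiteDimensional.comp hv).matrix_transpose
      (D.A.continuous_of_finiteDimensional.comp hv)
  have hc2 : Continuous fun q : ℝ × Matrix (Fin s) (Fin s) ℝ => D.L (x + q.1 • D.e) - D.Φ q.2 :=
    (D.L.continuous_of_finiteDimensional.comp hv).sub
      (D.Φ.continuous_of_finiteDimensional.comp continuous_snd)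
  have h1 := (isClosed_setOf_posSemidef hc1).mem_of_tendsto hpt (Filter.Eventually.of_forall fun k =>
    (schur_iff (D.posDef_of_mem hx (hεpos (φ k))).1 _ _).2 (by simp [Y, v, PosSemidef.zero]))
  have h2 := (isClosed_setOf_posSemidef hc2).mem_of_tendsto hpt (Filter.Eventually.of_forall fun k =>
    (D.posDef_of_mem hx (hεpos (φ k))).2.posSemidef)
  refine ⟨Ylim, ?_, ?_⟩
  · simpa using h1
  · simpa using h2

theorem Data.hypCone_eq : hypCone D.poly D.e = D.liftSet :=
  Set.ext fun _ => ⟨D.subset_liftSet, D.liftSet_subset⟩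

/-- The block matrix of the lift, linear in the point and the auxiliary variables. -/
noncomputable def Data.lmi : (Fin n → ℝ) × (Fin (s * s) → ℝ) →ₗ[ℝ]
    Matrix ((Fin s ⊕ Fin m) ⊕ Fin r) ((Fin s ⊕ Fin m) ⊕ Fin r) ℝ where
  toFun q :=
    let U : Matrix (Fin s) (Fin s) ℝ := Matrix.of fun i j => q.2 (finProdFinEquiv (i, j))
    fromBlocks (fromBlocks (U + Uᵀ) (D.b q.1) (D.b q.1)ᵀ (D.A q.1)) 0 0 (D.L q.1 - D.Φ (U + Uᵀ))
  map_add' q q' := by
    set U : Matrix (Fin s) (Fin s) ℝ := Matrix.of fun i j => q.2 (finProdFinEquiv (i, j))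
    set U' : Matrix (Fin s) (Fin s) ℝ := Matrix.of fun i j => q'.2 (finProdFinEquiv (i, j))
    have e : Matrix.of (fun i j => (q + q').2 (finProdFinEquiv (i, j))) = U + U' := by
      ext i j; simp [U, U']
    simp only [e, Prod.fst_add, map_add, transpose_add, fromBlocks_add, add_zero]
    congr 1
    · congr 1; abel
    · abel
  map_smul' c q := by
    set U : Matrix (Fin s) (Fin s) ℝ := Matrix.of fun i j => q.2 (finProdFinEquiv (i, j))
    have e : Matrix.of (fun i j => (c • q).2 (finProdFinEquiv (i, j))) = c • U := by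
      ext i j; simp [U]
    simp only [e, Prod.smul_fst, map_smul, transpose_smul, RingHom.id_apply, ← smul_add,
      fromBlocks_smul, smul_zero, smul_sub]

theorem Data.shadow : IsShadow (hypCone D.poly D.e) := by
  rw [D.hypCone_eq]
  set ι := (Fin s ⊕ Fin m) ⊕ Fin r
  set N := Fintype.card ι
  set φ : Fin N ≃ ι := (Fintype.equivFin ι).symm
  set T : (Fin n → ℝ) × (Fin (s * s) → ℝ) →ₗ[ℝ] Matrix (Fin N) (Fin N) ℝ :=
    { toFun := fun q => (D.lmi q).submatrix φ φ
      map_add' := fun q q' => by simp [submatrix_add]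
      map_smul' := fun c q => by simp [submatrix_smul] }
  have hsymm : ∀ q, (T q).IsSymm := by
    intro q
    refine IsSymm.submatrix ?_ φ
    set U : Matrix (Fin s) (Fin s) ℝ := Matrix.of fun i j => q.2 (finProdFinEquiv (i, j))
    have hU : (U + Uᵀ).IsSymm := isSymm_add_transpose_self U
    exact ((hU.fromBlocks rfl (D.hA _)).fromBlocks (by simp) ((D.hL _).sub (D.hΦs hU)))
  refine ⟨N, s * s, 0, fun i => T (Pi.single i 1, 0), fun j => T (0, Pi.single j 1),
    isSymm_zero, fun i => hsymm _, fun j => hsymm _, ?_⟩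
  have hT : ∀ (x : Fin n → ℝ) (u : Fin (s * s) → ℝ),
      (0 : Matrix (Fin N) (Fin N) ℝ) + ∑ i, x i • T (Pi.single i 1, 0) +
        ∑ j, u j • T (0, Pi.single j 1) = T (x, u) := by
    intro x u
    simp only [← map_smul, ← map_sum, zero_add, ← map_add]
    congr 1
    have ex := pi_eq_sum_univ' x
    have eu := pi_eq_sum_univ' u
    apply Prod.ext <;> simp [Prod.fst_sum, Prod.snd_sum, ← ex, ← eu]
  ext x
  simp only [Data.liftSet, Set.mem_ofPred_eq, hT]
  have hiff : ∀ u : Fin (s * s) → ℝ, (T (x, u)).PosSemidef ↔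
      (fromBlocks ((Matrix.of fun i j => u (finProdFinEquiv (i, j))) +
        (Matrix.of fun i j => u (finProdFinEquiv (i, j)))ᵀ) (D.b x) (D.b x)ᵀ (D.A x)).PosSemidef ∧
      (D.L x - D.Φ ((Matrix.of fun i j => u (finProdFinEquiv (i, j))) +
        (Matrix.of fun i j => u (finProdFinEquiv (i, j)))ᵀ)).PosSemidef := fun u =>
    (posSemidef_submatrix_equiv φ).trans posSemidef_fromBlocks_diag
  constructor
  · rintro ⟨Y, h1, h2⟩
    refine ⟨fun k => (1 / 2 : ℝ) * Y (finProdFinEquiv.symm k).1 (finProdFinEquiv.symm k).2, ?_⟩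
    rw [hiff]
    have hY : Yᵀ = Y := (isSymm_of_posSemidef (h1.submatrix Sum.inl)).eq
    have e : (Matrix.of fun i j => (1 / 2 : ℝ) * Y i j) +
        (Matrix.of fun i j => (1 / 2 : ℝ) * Y i j)ᵀ = Y := by
      ext i j
      have := congrFun (congrFun hY i) j
      simp only [transpose_apply] at this
      simp [this]
      ring
    simp only [Equiv.symm_apply_apply]
    rw [e]
    exact ⟨h1, h2⟩
  · rintro ⟨u, hu⟩
    exact ⟨_, (hiff u).1 hu⟩

end Vale.Agent.P256
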